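import Vale.Agent.Lib.P061.Defs

/-!
# Basic lemmas on thin spanning trees: every spanning tree is crossed entirely by some cut.
-/

namespace Vale.Agent.Lib.P061

open Finset

variable {V E : Type} [Fintype V] [Fintype E] [DecidableEq V] [DecidableEq E]

set_option linter.unusedSectionVars false

lemma Multigraph.mem_cut (G : Multigraph V E) (S : Finset V) (e : E) :
    e ∈ G.cut S ↔ (G.src e ∈ S ∧ G.tgt e ∉ S) ∨ (G.src e ∉ S ∧ G.tgt e ∈ S) := by
  simp [Multigraph.cut]

lemma Multigraph.graphOf_adj (G : Multigraph V E) (T : Finset E) {e : E} (he : e ∈ T) :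
    (G.graphOf T).Adj (G.src e) (G.tgt e) := by
  rw [Multigraph.graphOf, SimpleGraph.fromRel_adj]
  exact ⟨G.loopless e, Or.inl ⟨e, he, rfl, rfl⟩⟩

/-- The simple graph of a spanning tree is a tree. -/
lemma Multigraph.IsSpanningTree.isTree {G : Multigraph V E} {T : Finset E}
    (hT : G.IsSpanningTree T) : (G.graphOf T).IsTree := by
  classical
  obtain ⟨hconn, hcard⟩ := hT
  rw [SimpleGraph.isTree_iff_connected_and_card]
  refine ⟨hconn, ?_⟩
  have h1 := hconn.card_vert_le_card_edgeSet_add_one
  have h2 : Nat.card (G.graphOf T).edgeSet ≤ T.card := by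
    have hsub : (G.graphOf T).edgeSet ⊆ ((T.image (fun e => s(G.src e, G.tgt e)) : Finset (Sym2 V)) : Set (Sym2 V)) := by
      intro x hx
      induction x using Sym2.ind with
      | _ u v =>
        rw [SimpleGraph.mem_edgeSet, Multigraph.graphOf, SimpleGraph.fromRel_adj] at hx
        obtain ⟨_, ⟨e, he, h1, h2⟩ | ⟨e, he, h1, h2⟩⟩ := hx
        · simp only [Finset.coe_image, Set.mem_image, Finset.mem_coe]
          exact ⟨e, he, by rw [h1, h2]⟩
        · simp only [Finset.coe_image, Set.mem_image, Finset.mem_coe]
          exact ⟨e, he, by rw [h1, h2, Sym2.eq_swap]⟩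
    calc Nat.card (G.graphOf T).edgeSet
        ≤ Nat.card ((T.image (fun e => s(G.src e, G.tgt e)) : Finset (Sym2 V)) : Set (Sym2 V)) :=
          Nat.card_mono (Finset.finite_toSet _) hsub
      _ = (T.image (fun e => s(G.src e, G.tgt e))).card := by
          rw [Nat.card_coe_set_eq, Set.ncard_coe_finset]
      _ ≤ T.card := Finset.card_image_le
  rw [Nat.card_eq_fintype_card (α := V)] at h1 ⊢
  omega

/-- Every spanning tree `T` of a multigraph on at least two vertices has a cut `δ(S)`, with `S`
nonempty and proper, containing all edges of `T` (take a colour class of a 2-colouring of `T`). -/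
lemma Multigraph.IsSpanningTree.exists_cut {G : Multigraph V E} {T : Finset E}
    (hT : G.IsSpanningTree T) (hV : 2 ≤ Fintype.card V) :
    ∃ S : Finset V, S.Nonempty ∧ S ≠ Finset.univ ∧ T ⊆ G.cut S := by
  classical
  obtain ⟨c⟩ := hT.isTree.colorable_two
  have hcross : ∀ e ∈ T, c (G.src e) ≠ c (G.tgt e) := fun e he => c.valid (G.graphOf_adj T he)
  refine ⟨Finset.univ.filter (fun v => c v = 0), ?_, ?_, ?_⟩
  · have hne : T.Nonempty := by
      rw [← Finset.card_pos]
      have := hT.2
      omega
    obtain ⟨e, he⟩ := hne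
    have h := hcross e he
    by_cases h0 : c (G.src e) = 0
    · exact ⟨G.src e, by simp [h0]⟩
    · refine ⟨G.tgt e, ?_⟩
      simp only [Finset.mem_filter, Finset.mem_univ, true_and]
      omega
  · have hne : T.Nonempty := by
      rw [← Finset.card_pos]
      have := hT.2
      omega
    obtain ⟨e, he⟩ := hne
    have h := hcross e he
    intro hS
    have h1 : G.src e ∈ Finset.univ.filter (fun v => c v = 0) := by rw [hS]; exact Finset.mem_univ _
    have h2 : G.tgt e ∈ Finset.univ.filter (fun v => c v = 0) := by rw [hS]; exact Finset.mem_univ _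
    simp only [Finset.mem_filter, Finset.mem_univ, true_and] at h1 h2
    exact h (h1.trans h2.symm)
  · intro e he
    have h := hcross e he
    rw [Multigraph.mem_cut]
    simp only [Finset.mem_filter, Finset.mem_univ, true_and]
    by_cases h0 : c (G.src e) = 0
    · left
      exact ⟨h0, fun h1 => h (h0.trans h1.symm)⟩
    · right
      refine ⟨h0, ?_⟩
      omega

end Vale.Agent.Lib.P061
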