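import Vale.Agent.Lib.P061.Basic

/-!
# Complete graphs: cut sizes and edge connectivity
-/

namespace Vale.Agent.Lib.P061

open Finset

/-- The complete graph `K_n` viewed as a multigraph: the vertices are `Fin n` and there is exactly
one edge for every pair `i < j`, joining `i` and `j`. -/
def completeGraph (n : ℕ) : Multigraph (Fin n) {p : Fin n × Fin n // p.1 < p.2} where
  src := fun p => p.1.1
  tgt := fun p => p.1.2
  loopless := fun p => ne_of_lt p.2

lemma card_cut_completeGraph (n : ℕ) (S : Finset (Fin n)) :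
    ((completeGraph n).cut S).card = S.card * (n - S.card) := by
  have key : ((completeGraph n).cut S).card = (S ×ˢ Sᶜ).card := by
    refine Finset.card_bij
      (fun e _ => if e.1.1 ∈ S then (e.1.1, e.1.2) else (e.1.2, e.1.1)) ?_ ?_ ?_
    · intro e he
      rw [Multigraph.mem_cut] at he
      simp only [completeGraph] at he
      rcases he with ⟨h1, h2⟩ | ⟨h1, h2⟩
      · simp [h1, h2]
      · simp [h1, h2]
    · intro e1 he1 e2 he2 heq
      rw [Multigraph.mem_cut] at he1 he2
      simp only [completeGraph] at he1 he2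
      obtain ⟨⟨a1, b1⟩, hab1⟩ := e1
      obtain ⟨⟨a2, b2⟩, hab2⟩ := e2
      simp only at he1 he2 heq hab1 hab2
      rcases he1 with ⟨h1, h2⟩ | ⟨h1, h2⟩ <;> rcases he2 with ⟨h3, h4⟩ | ⟨h3, h4⟩
      · simp only [h1, h3, if_true, Prod.mk.injEq] at heq
        simp [heq.1, heq.2]
      · simp only [h1, h3, if_true, if_false, Prod.mk.injEq] at heq
        exfalso
        rw [heq.1, heq.2] at hab1
        exact lt_asymm hab1 hab2
      · simp only [h1, h3, if_true, if_false, Prod.mk.injEq] at heq
        exfalso
        rw [heq.1, heq.2] at hab1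
        exact lt_asymm hab1 hab2
      · simp only [h1, h3, if_false, Prod.mk.injEq] at heq
        simp [heq.1, heq.2]
    · intro p hp
      obtain ⟨a, b⟩ := p
      simp only [Finset.mem_product, Finset.mem_compl] at hp
      obtain ⟨ha, hb⟩ := hp
      have hne : a ≠ b := fun h => hb (h ▸ ha)
      rcases lt_or_gt_of_ne hne with hlt | hgt
      · refine ⟨⟨(a, b), hlt⟩, ?_, ?_⟩
        · rw [Multigraph.mem_cut]
          exact Or.inl ⟨ha, hb⟩
        · simp [ha]
      · refine ⟨⟨(b, a), hgt⟩, ?_, ?_⟩
        · rw [Multigraph.mem_cut]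
          exact Or.inr ⟨hb, ha⟩
        · simp [hb]
  rw [key, Finset.card_product, Finset.card_compl, Fintype.card_fin]

/-- `K_n` is `(n-1)`-edge-connected. -/
lemma completeGraph_edgeConnected (n : ℕ) : (completeGraph n).EdgeConnected (n - 1) := by
  intro S hne hnu
  rw [card_cut_completeGraph]
  have h1 : 1 ≤ S.card := Finset.card_pos.mpr hne
  have h2 : S.card < n := by
    have h3 : S.card ≤ n := by simpa using S.card_le_univ
    have h4 : S.card ≠ n := fun h => hnu ((Finset.card_eq_iff_eq_univ S).mp (by simpa using h))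
    omega
  obtain ⟨a, ha⟩ : ∃ a, S.card = a + 1 := ⟨S.card - 1, by omega⟩
  obtain ⟨b, hb⟩ : ∃ b, n - S.card = b + 1 := ⟨n - S.card - 1, by omega⟩
  rw [hb, ha]
  have : n - 1 = a + b + 1 := by omega
  rw [this]
  nlinarith [Nat.zero_le (a * b)]

end Vale.Agent.Lib.P061
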