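import Mathlib

/-!
# Thin spanning trees in finite loopless multigraphs

Basic definitions for the (strong) thin tree conjecture.
-/

namespace Vale.Agent.Lib.P061

/-- A finite loopless multigraph with vertex type `V` and edge type `E`: every edge `e : E`
joins the two distinct vertices `src e` and `tgt e`.  The graph is undirected: `src` and `tgt`
only name the two ends of an edge.  Parallel edges are different elements of `E`. -/
structure Multigraph (V E : Type) where
  /-- one end of the edge -/
  src : E → V
  /-- the other end of the edge -/
  tgt : E → V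
  /-- no loops -/
  loopless : ∀ e, src e ≠ tgt e

variable {V E : Type} [Fintype V] [Fintype E] [DecidableEq V] [DecidableEq E]

/-- `cut S` is `δ_G(S)`: the set of edges (copies counted separately) having exactly one end
in `S`. -/
def Multigraph.cut (G : Multigraph V E) (S : Finset V) : Finset E :=
  Finset.univ.filter
    (fun e => (G.src e ∈ S ∧ G.tgt e ∉ S) ∨ (G.src e ∉ S ∧ G.tgt e ∈ S))

/-- `G` is `k`-edge-connected: `|δ_G(S)| ≥ k` for every nonempty proper vertex set `S`. -/
def Multigraph.EdgeConnected (G : Multigraph V E) (k : ℕ) : Prop :=
  ∀ S : Finset V, S.Nonempty → S ≠ Finset.univ → k ≤ (G.cut S).card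

/-- The simple graph on `V` in which two distinct vertices are adjacent exactly when some edge
of the edge set `T` joins them. -/
def Multigraph.graphOf (G : Multigraph V E) (T : Finset E) : SimpleGraph V :=
  SimpleGraph.fromRel (fun u v => ∃ e ∈ T, G.src e = u ∧ G.tgt e = v)

/-- `T` is a spanning tree of `G`: a set of `|V| - 1` edge copies that connects all of `V`. -/
def Multigraph.IsSpanningTree (G : Multigraph V E) (T : Finset E) : Prop :=
  (G.graphOf T).Connected ∧ T.card + 1 = Fintype.card V

/-- `T` is `α`-thin in `G`: `|δ_T(S)| ≤ α |δ_G(S)|` for every nonempty proper vertex set `S`,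
where `δ_T(S) = T ∩ δ_G(S)`. -/
def Multigraph.IsThin (G : Multigraph V E) (T : Finset E) (α : ℝ) : Prop :=
  ∀ S : Finset V, S.Nonempty → S ≠ Finset.univ →
    ((T ∩ G.cut S).card : ℝ) ≤ α * ((G.cut S).card : ℝ)

end Vale.Agent.Lib.P061
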