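import Vale.Agent.Lib.P061.Complete

/-!
# Lower bounds on the thinness of spanning trees of complete graphs

A spanning tree of `K_n` is bipartite, so one colour class `S` is crossed by all `n - 1` tree
edges, while `|δ(S)| = |S| (n - |S|) ≤ n² / 4`.  Hence no spanning tree of `K_n` is `α`-thin for
`α < 4 (n - 1) / n²`.
-/

namespace Vale.Agent.Lib.P061

/-- Every spanning tree of `K_{k+1}` has thinness at least `4 k / (k + 1)²`. -/
theorem completeGraph_thin_lower (k : ℕ) (hk : 1 ≤ k)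
    (T : Finset {p : Fin (k + 1) × Fin (k + 1) // p.1 < p.2}) (α : ℝ)
    (hT : (completeGraph (k + 1)).IsSpanningTree T) (hthin : (completeGraph (k + 1)).IsThin T α) :
    4 * (k : ℝ) / ((k : ℝ) + 1) ^ 2 ≤ α := by
  obtain ⟨S, hne, hnu, hsub⟩ := hT.exists_cut (by simp; omega)
  have h1 := hthin S hne hnu
  rw [Finset.inter_eq_left.mpr hsub, card_cut_completeGraph] at h1
  have hTcard : T.card = k := by
    have := hT.2
    simp at this
    omega
  have hs1 : 1 ≤ S.card := Finset.card_pos.mpr hne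
  have hs2 : S.card ≤ k + 1 := by simpa using S.card_le_univ
  rw [hTcard] at h1
  have hsub' : ((k + 1 - S.card : ℕ) : ℝ) = (k : ℝ) + 1 - S.card := by
    rw [Nat.cast_sub hs2]; push_cast; ring
  push_cast at h1
  rw [hsub'] at h1
  set s : ℝ := (S.card : ℝ) with hs
  have hkpos : (0 : ℝ) < (k : ℝ) := by exact_mod_cast hk
  have hx : s * ((k : ℝ) + 1 - s) ≤ ((k : ℝ) + 1) ^ 2 / 4 := by
    nlinarith [sq_nonneg ((k : ℝ) + 1 - 2 * s)]
  have hα : 0 < α := by
    by_contra hneg
    have hα0 : α ≤ 0 := le_of_not_gt hneg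
    have hx0 : 0 ≤ s * ((k : ℝ) + 1 - s) := by
      have : s ≤ (k : ℝ) + 1 := by
        have : (S.card : ℝ) ≤ ((k + 1 : ℕ) : ℝ) := by exact_mod_cast hs2
        simpa [hs] using this
      have hs0 : 0 ≤ s := by positivity
      nlinarith
    nlinarith
  have h2 : (k : ℝ) ≤ α * (((k : ℝ) + 1) ^ 2 / 4) :=
    le_trans h1 (mul_le_mul_of_nonneg_left hx hα.le)
  rw [div_le_iff₀ (by positivity)]
  nlinarith

/-- For `C < 4` the strong thin tree statement with constant `C` fails. -/
theorem not_strong_thin_of_lt_four : ∀ C : ℝ, C < 4 →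
    ¬ (∀ k : ℕ, 1 ≤ k → ∀ (V E : Type) [Fintype V] [Fintype E] [DecidableEq V] [DecidableEq E]
        (G : Multigraph V E), 2 ≤ Fintype.card V → G.EdgeConnected k →
        ∃ T : Finset E, G.IsSpanningTree T ∧ G.IsThin T (C / k)) := by
  intro C hC h
  have hpos : 0 < 4 - C := by linarith
  obtain ⟨n, hn⟩ := exists_nat_gt (8 / (4 - C))
  have hk1 : 1 ≤ n + 1 := by omega
  obtain ⟨T, hT, hthin⟩ := h (n + 1) hk1 (Fin (n + 1 + 1)) _ (completeGraph (n + 1 + 1))
    (by simp) (by simpa using completeGraph_edgeConnected (n + 1 + 1))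
  have h1 := completeGraph_thin_lower (n + 1) hk1 T _ hT hthin
  have hn' : 8 < (4 - C) * ((n : ℝ)) := by
    rw [div_lt_iff₀ hpos] at hn
    linarith
  have hn0 : (0 : ℝ) ≤ n := by positivity
  push_cast at h1
  rw [div_le_div_iff₀ (by positivity) (by positivity)] at h1
  nlinarith

end Vale.Agent.Lib.P061
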