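import Vale.Agent.Lib.P061.Path
import Vale.Agent.Lib.P061.LowerBound

/-!
# The exact optimal thinness of spanning trees of `K_n` is `(n - 1) / ⌊n² / 4⌋`
-/

namespace Vale.Agent.Lib.P061

open Finset

/-- arithmetic core: `c ≤ 2a`, `c ≤ 2b`, `c ≤ a + b - 1` imply `c ⌊(a+b)²/4⌋ ≤ (a+b-1) a b`. -/
lemma arith_core (a b c : ℕ) (ha : 1 ≤ a) (hb : 1 ≤ b) (hab : a ≤ b)
    (h1 : c ≤ 2 * a) (h3 : c + 1 ≤ a + b) :
    c * ((a + b) ^ 2 / 4) ≤ (a + b - 1) * (a * b) := by
  have hq : 4 * ((a + b) ^ 2 / 4) ≤ (a + b) ^ 2 := Nat.mul_div_le _ _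
  set q := (a + b) ^ 2 / 4 with hqdef
  rcases Nat.eq_or_lt_of_le hab with heq | hlt
  · subst heq
    have hq' : q ≤ a * a := by nlinarith
    have hc : c ≤ a + a - 1 := by omega
    exact Nat.mul_le_mul hc hq'
  · obtain ⟨d, rfl⟩ : ∃ d, b = a + 1 + d := ⟨b - a - 1, by omega⟩
    have hX : 4 * q ≤ 2 * ((a + (a + 1 + d) - 1) * (a + 1 + d)) + 1 := by
      have e : a + (a + 1 + d) - 1 = 2 * a + d := by omega
      rw [e]
      nlinarith
    have h2q : 2 * q ≤ (a + (a + 1 + d) - 1) * (a + 1 + d) := by omega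
    calc c * q ≤ (2 * a) * q := Nat.mul_le_mul_right _ h1
      _ = a * (2 * q) := by ring
      _ ≤ a * ((a + (a + 1 + d) - 1) * (a + 1 + d)) := Nat.mul_le_mul_left _ h2q
      _ = (a + (a + 1 + d) - 1) * (a * (a + 1 + d)) := by ring

lemma arith_core' (a b c : ℕ) (ha : 1 ≤ a) (hb : 1 ≤ b)
    (h1 : c ≤ 2 * a) (h2 : c ≤ 2 * b) (h3 : c + 1 ≤ a + b) :
    c * ((a + b) ^ 2 / 4) ≤ (a + b - 1) * (a * b) := by
  rcases le_total a b with hab | hab
  · exact arith_core a b c ha hb hab h1 h3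
  · have := arith_core b a c hb ha hab h2 (by omega)
    rw [Nat.add_comm b a, Nat.mul_comm b a] at this
    exact this

/-- The Hamiltonian path of `K_n` is `((n-1)/⌊n²/4⌋)`-thin. -/
theorem pathTree_isThin (n : ℕ) (hn : 2 ≤ n) :
    (completeGraph n).IsThin (pathTree n) (((n : ℝ) - 1) / (((n ^ 2 / 4 : ℕ) : ℝ))) := by
  intro S hne hnu
  rw [card_cut_completeGraph]
  have hs1 : 1 ≤ S.card := Finset.card_pos.mpr hne
  have hs2 : S.card < n := by
    have h3 : S.card ≤ n := by simpa using S.card_le_univ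
    have h4 : S.card ≠ n := fun h => hnu ((Finset.card_eq_iff_eq_univ S).mp (by simpa using h))
    omega
  have hc1 := card_pathTree_inter_cut_le n S
  have hc2 := card_pathTree_inter_cut_le n Sᶜ
  rw [cut_compl, Finset.card_compl, Fintype.card_fin] at hc2
  have hc3 : (pathTree n ∩ (completeGraph n).cut S).card + 1 ≤ n := by
    have h : (pathTree n ∩ (completeGraph n).cut S).card ≤ (pathTree n).card :=
      Finset.card_le_card Finset.inter_subset_left
    rcases card_pathTree n with h' | h'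
    · omega
    · omega
  set c := (pathTree n ∩ (completeGraph n).cut S).card with hcdef
  set a := S.card with hadef
  obtain ⟨b, hb⟩ : ∃ b, n = a + b := ⟨n - a, by omega⟩
  have hb1 : 1 ≤ b := by omega
  have hnb : n - a = b := by omega
  rw [hnb]
  have key := arith_core' a b c hs1 hb1 hc1 (by omega) (by omega)
  rw [← hb] at key
  have hq0 : 0 < n ^ 2 / 4 := by
    apply Nat.div_pos
    · nlinarith
    · norm_num
  have hq0' : (0 : ℝ) < ((n ^ 2 / 4 : ℕ) : ℝ) := by exact_mod_cast hq0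
  rw [div_mul_eq_mul_div, le_div_iff₀ hq0']
  have hn1 : ((n - 1 : ℕ) : ℝ) = (n : ℝ) - 1 := by
    rw [Nat.cast_sub (by omega)]; simp
  have key' : ((c * (n ^ 2 / 4) : ℕ) : ℝ) ≤ (((n - 1) * (a * b) : ℕ) : ℝ) := by exact_mod_cast key
  push_cast at key'
  rw [hn1] at key'
  push_cast
  linarith

/-- Every `α`-thin spanning tree of `K_n` has `α ≥ (n-1)/⌊n²/4⌋`. -/
theorem completeGraph_thin_lower_exact (n : ℕ) (hn : 2 ≤ n)
    (T : Finset {p : Fin n × Fin n // p.1 < p.2}) (α : ℝ)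
    (hT : (completeGraph n).IsSpanningTree T) (hthin : (completeGraph n).IsThin T α) :
    ((n : ℝ) - 1) / (((n ^ 2 / 4 : ℕ) : ℝ)) ≤ α := by
  obtain ⟨S, hne, hnu, hsub⟩ := hT.exists_cut (by simpa using hn)
  have h1 := hthin S hne hnu
  rw [Finset.inter_eq_left.mpr hsub, card_cut_completeGraph] at h1
  have hTcard : T.card + 1 = n := by
    have := hT.2
    simpa using this
  have hs1 : 1 ≤ S.card := Finset.card_pos.mpr hne
  have hs2 : S.card ≤ n := by simpa using S.card_le_univ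
  have hq0 : 0 < n ^ 2 / 4 := by
    apply Nat.div_pos
    · nlinarith
    · norm_num
  have hq0' : (0 : ℝ) < ((n ^ 2 / 4 : ℕ) : ℝ) := by exact_mod_cast hq0
  -- the cut has at most ⌊n²/4⌋ edges
  have hcut : S.card * (n - S.card) ≤ n ^ 2 / 4 := by
    rw [Nat.le_div_iff_mul_le (by norm_num)]
    obtain ⟨b, hb⟩ : ∃ b, n = S.card + b := ⟨n - S.card, by omega⟩
    have : n - S.card = b := by omega
    rw [this]
    generalize S.card = a at hb
    subst hb
    have h4 : 4 * (a * b) ≤ (a + b) ^ 2 := by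
      have := four_mul_le_sq_add a b
      linarith
    linarith
  have hcut' : ((S.card * (n - S.card) : ℕ) : ℝ) ≤ ((n ^ 2 / 4 : ℕ) : ℝ) := by exact_mod_cast hcut
  have hTr : (T.card : ℝ) = (n : ℝ) - 1 := by
    have : ((T.card + 1 : ℕ) : ℝ) = (n : ℝ) := by exact_mod_cast hTcard
    push_cast at this
    linarith
  rw [hTr] at h1
  have hn1 : (1 : ℝ) ≤ (n : ℝ) - 1 := by
    have : (2 : ℝ) ≤ (n : ℝ) := by exact_mod_cast hn
    linarith
  have hcutpos : (0 : ℝ) ≤ ((S.card * (n - S.card) : ℕ) : ℝ) := by positivity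
  have hα : 0 < α := by
    by_contra hneg
    have hα0 : α ≤ 0 := le_of_not_gt hneg
    have : α * ((S.card * (n - S.card) : ℕ) : ℝ) ≤ 0 := mul_nonpos_of_nonpos_of_nonneg hα0 hcutpos
    linarith
  rw [div_le_iff₀ hq0']
  calc (n : ℝ) - 1 ≤ α * ((S.card * (n - S.card) : ℕ) : ℝ) := h1
    _ ≤ α * ((n ^ 2 / 4 : ℕ) : ℝ) := mul_le_mul_of_nonneg_left hcut' hα.le

end Vale.Agent.Lib.P061
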