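import Vale.Agent.Lib.P061.Complete

/-!
# The Hamiltonian path of `K_n` and its thinness
-/

namespace Vale.Agent.Lib.P061

open Finset

/-- The Hamiltonian path `0 - 1 - ... - (n-1)` of `K_n`, as a set of edges. -/
def pathTree (n : ℕ) : Finset {p : Fin n × Fin n // p.1 < p.2} :=
  Finset.univ.filter (fun e => e.1.1.val + 1 = e.1.2.val)

lemma mem_pathTree (n : ℕ) (e : {p : Fin n × Fin n // p.1 < p.2}) :
    e ∈ pathTree n ↔ e.1.1.val + 1 = e.1.2.val := by
  simp [pathTree]

lemma src_injOn_pathTree (n : ℕ) :
    Set.InjOn (fun e : {p : Fin n × Fin n // p.1 < p.2} => e.1.1) (pathTree n : Set _) := by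
  intro e1 he1 e2 he2 h
  simp only [Finset.mem_coe, mem_pathTree] at he1 he2
  simp only at h
  apply Subtype.ext
  apply Prod.ext
  · exact h
  · apply Fin.ext
    rw [← he1, ← he2, h]

lemma tgt_injOn_pathTree (n : ℕ) :
    Set.InjOn (fun e : {p : Fin n × Fin n // p.1 < p.2} => e.1.2) (pathTree n : Set _) := by
  intro e1 he1 e2 he2 h
  simp only [Finset.mem_coe, mem_pathTree] at he1 he2
  simp only at h
  apply Subtype.ext
  apply Prod.ext
  · apply Fin.ext
    have : e1.1.1.val + 1 = e2.1.1.val + 1 := by rw [he1, he2, h]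
    omega
  · exact h

lemma card_pathTree (n : ℕ) : (pathTree n).card + 1 = n ∨ n = 0 := by
  rcases Nat.eq_zero_or_pos n with h0 | hpos
  · exact Or.inr h0
  · left
    have himg : (pathTree n).image (fun e => e.1.1) =
        Finset.univ.filter (fun i : Fin n => i.val + 1 < n) := by
      ext i
      simp only [Finset.mem_image, mem_pathTree, Finset.mem_filter, Finset.mem_univ, true_and]
      constructor
      · rintro ⟨e, he, rfl⟩
        have := e.1.2.isLt
        omega
      · intro hi
        refine ⟨⟨(i, ⟨i.val + 1, hi⟩), ?_⟩, ?_, rfl⟩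
        · show i < (⟨i.val + 1, hi⟩ : Fin n)
          rw [Fin.lt_def]
          simp
        · simp
    have hcard : (pathTree n).card = (Finset.univ.filter (fun i : Fin n => i.val + 1 < n)).card := by
      rw [← himg, Finset.card_image_of_injOn (src_injOn_pathTree n)]
    have h2 : (Finset.univ.filter (fun i : Fin n => i.val + 1 < n)).card = n - 1 := by
      have : (Finset.univ.filter (fun i : Fin n => i.val + 1 < n)) =
          Finset.univ.filter (fun i : Fin n => i.val < n - 1) := by
        ext i; simp; omega
      rw [this, Fin.card_filter_val_lt]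
      omega
    rw [hcard, h2]
    omega

lemma pathTree_isSpanningTree (n : ℕ) (hn : 1 ≤ n) :
    (completeGraph n).IsSpanningTree (pathTree n) := by
  refine ⟨?_, ?_⟩
  · obtain ⟨m, rfl⟩ : ∃ m, n = m + 1 := ⟨n - 1, by omega⟩
    refine (SimpleGraph.pathGraph_connected m).mono ?_
    intro u v huv
    rw [SimpleGraph.pathGraph_adj] at huv
    rw [Multigraph.graphOf, SimpleGraph.fromRel_adj]
    rcases huv with h | h
    · have hlt : u < v := by rw [Fin.lt_def]; omega
      exact ⟨ne_of_lt hlt, Or.inl ⟨⟨(u, v), hlt⟩, by simp [mem_pathTree, h], rfl, rfl⟩⟩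
    · have hlt : v < u := by rw [Fin.lt_def]; omega
      exact ⟨ne_of_gt hlt, Or.inr ⟨⟨(v, u), hlt⟩, by simp [mem_pathTree, h], rfl, rfl⟩⟩
  · rcases card_pathTree n with h | h
    · simpa using h
    · omega

/-- The path crosses every cut at most twice per vertex of `S`. -/
lemma card_pathTree_inter_cut_le (n : ℕ) (S : Finset (Fin n)) :
    (pathTree n ∩ (completeGraph n).cut S).card ≤ 2 * S.card := by
  have hsub : pathTree n ∩ (completeGraph n).cut S ⊆
      (pathTree n).filter (fun e => e.1.1 ∈ S) ∪ (pathTree n).filter (fun e => e.1.2 ∈ S) := by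
    intro e he
    rw [Finset.mem_inter, Multigraph.mem_cut] at he
    simp only [completeGraph] at he
    rw [Finset.mem_union, Finset.mem_filter, Finset.mem_filter]
    rcases he.2 with h | h
    · exact Or.inl ⟨he.1, h.1⟩
    · exact Or.inr ⟨he.1, h.2⟩
  have h1 : ((pathTree n).filter (fun e => e.1.1 ∈ S)).card ≤ S.card := by
    apply Finset.card_le_card_of_injOn (fun e => e.1.1)
    · intro e he
      rw [Finset.mem_coe, Finset.mem_filter] at he
      exact he.2
    · intro e1 he1 e2 he2 h
      rw [Finset.mem_coe, Finset.mem_filter] at he1 he2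
      exact src_injOn_pathTree n (by simpa using he1.1) (by simpa using he2.1) h
  have h2 : ((pathTree n).filter (fun e => e.1.2 ∈ S)).card ≤ S.card := by
    apply Finset.card_le_card_of_injOn (fun e => e.1.2)
    · intro e he
      rw [Finset.mem_coe, Finset.mem_filter] at he
      exact he.2
    · intro e1 he1 e2 he2 h
      rw [Finset.mem_coe, Finset.mem_filter] at he1 he2
      exact tgt_injOn_pathTree n (by simpa using he1.1) (by simpa using he2.1) h
  calc (pathTree n ∩ (completeGraph n).cut S).card
      ≤ ((pathTree n).filter (fun e => e.1.1 ∈ S) ∪ (pathTree n).filter (fun e => e.1.2 ∈ S)).card :=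
        Finset.card_le_card hsub
    _ ≤ ((pathTree n).filter (fun e => e.1.1 ∈ S)).card + ((pathTree n).filter (fun e => e.1.2 ∈ S)).card :=
        Finset.card_union_le _ _
    _ ≤ 2 * S.card := by omega

lemma cut_compl (n : ℕ) (S : Finset (Fin n)) :
    (completeGraph n).cut Sᶜ = (completeGraph n).cut S := by
  ext e
  rw [Multigraph.mem_cut, Multigraph.mem_cut]
  simp only [Finset.mem_compl, not_not]
  tauto

end Vale.Agent.Lib.P061
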